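import Mathlib

/-!
# P032: hexagons of pairs of five colours below six palettes, masks

Colours `0 .. 4` as bits, `0` is the colour of rule (N): antipodal letters never fill `{1, 2, 3, 4}` (mask 30).
-/

namespace Vale.Agent.P032.Words6.H378

/-- pairs -/
def PR : List ℕ := [3, 5, 9, 17, 6, 10, 18, 12, 20, 24]

/-- triples -/
def TR : List ℕ := [7, 11, 19, 13, 21, 25, 14, 22, 26, 28]

/-- one or no colour -/
def le1 (m : ℕ) : Bool := Nat.beq m 0 || Nat.beq m 1 || Nat.beq m 2 || Nat.beq m 4 || Nat.beq m 8 ||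
  Nat.beq m 16

/-- is it a triple -/
def isT (m : ℕ) : Bool := TR.any (Nat.beq m)

/-- neighbouring palettes -/
def nbP (a b : ℕ) : Bool := cond (isT a && isT b) (le1 (Nat.land a b)) (Nat.beq (Nat.land a b) 0)

/-- disjoint -/
def dj (a b : ℕ) : Bool := Nat.beq (Nat.land a b) 0

/-- rule (N) -/
def nN (a b : ℕ) : Bool := !(Nat.beq (Nat.lor a b) 30)

/-- letters of a palette -/
def LP (t : ℕ) : List ℕ := PR.filter fun a => Nat.beq (Nat.land a t) a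

/-- class of a word: colour 0 at even positions only, at odd positions only, at `k` and `k + 3` -/
def cl (a0 a1 a2 a3 a4 a5 : ℕ) : ℕ :=
  cond (Nat.beq (Nat.land (Nat.lor a1 (Nat.lor a3 a5)) 1) 0) 0
    (cond (Nat.beq (Nat.land (Nat.lor a0 (Nat.lor a2 a4)) 1) 0) 1
      (cond (Nat.beq (Nat.land a0 1) 1) 2 (cond (Nat.beq (Nat.land a1 1) 1) 3 4)))

/-- all legal words below the palettes satisfy `F` -/
def wAll (t0 t1 t2 t3 t4 t5 : ℕ) (F : ℕ → ℕ → ℕ → ℕ → ℕ → ℕ → Bool) : Bool :=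
  (LP t0).all fun a0 => (LP t1).all fun a1 => !(dj a0 a1) || (LP t2).all fun a2 => !(dj a1 a2) ||
    (LP t3).all fun a3 => !(dj a2 a3 && nN a0 a3) || (LP t4).all fun a4 => !(dj a3 a4 && nN a1 a4) ||
      (LP t5).all fun a5 => !(dj a4 a5 && dj a5 a0 && nN a2 a5) || F a0 a1 a2 a3 a4 a5

/-- all palette tuples which begin with `t0` satisfy `F` -/
def tAll (Q : List ℕ) (t0 : ℕ) (F : ℕ → ℕ → ℕ → ℕ → ℕ → ℕ → Bool) : Bool :=
  Q.all fun t1 => !(nbP t0 t1) || Q.all fun t2 => !(nbP t1 t2) ||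
    Q.all fun t3 => !(nbP t2 t3) || Q.all fun t4 => !(nbP t3 t4) ||
      Q.all fun t5 => !(nbP t4 t5 && nbP t5 t0) || F t0 t1 t2 t3 t4 t5

/-- all words below the palettes have the class `c` -/
def one (c t0 t1 t2 t3 t4 t5 : ℕ) : Bool :=
  wAll t0 t1 t2 t3 t4 t5 fun a0 a1 a2 a3 a4 a5 => Nat.beq (cl a0 a1 a2 a3 a4 a5) c

/-- F1 for one tuple -/
def f1 (t0 t1 t2 t3 t4 t5 : ℕ) : Bool :=
  (isT t0 && isT t1 && isT t2 && isT t3 && isT t4 && isT t5) || one 0 t0 t1 t2 t3 t4 t5 ||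
    one 1 t0 t1 t2 t3 t4 t5 || one 2 t0 t1 t2 t3 t4 t5 || one 3 t0 t1 t2 t3 t4 t5 ||
      one 4 t0 t1 t2 t3 t4 t5

/-- all legal words satisfy `F` -/
def rAll (F : ℕ → ℕ → ℕ → ℕ → ℕ → ℕ → Bool) : Bool :=
  PR.all fun a0 => PR.all fun a1 => !(dj a0 a1) || PR.all fun a2 => !(dj a1 a2) ||
    PR.all fun a3 => !(dj a2 a3 && nN a0 a3) || PR.all fun a4 => !(dj a3 a4 && nN a1 a4) ||
      PR.all fun a5 => !(dj a4 a5 && dj a5 a0 && nN a2 a5) || F a0 a1 a2 a3 a4 a5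

/-- the legal words below the palettes, as lists -/
def WL (t0 t1 t2 t3 t4 t5 : ℕ) : List (List ℕ) :=
  (LP t0).flatMap fun a0 => (LP t1).flatMap fun a1 => cond (dj a0 a1) ((LP t2).flatMap fun a2 =>
    cond (dj a1 a2) ((LP t3).flatMap fun a3 => cond (dj a2 a3 && nN a0 a3) ((LP t4).flatMap fun a4 =>
    cond (dj a3 a4 && nN a1 a4) ((LP t5).flatMap fun a5 => cond (dj a4 a5 && dj a5 a0 && nN a2 a5)
      [[a0, a1, a2, a3, a4, a5]] []) []) []) []) []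

/-- class of a list -/
def clL : List ℕ → ℕ
  | [a0, a1, a2, a3, a4, a5] => cl a0 a1 a2 a3 a4 a5
  | _ => 0

/-- all pairs between two colours and the three others -/
def cutB (l : List ℕ) : Bool := PR.any fun m => PR.all fun a =>
  Nat.beq (Nat.land a m) 0 || Nat.beq a m || l.any (Nat.beq a)

/-- the tuple alternates, the common colour is `0` -/
def altB : List ℕ → Bool
  | [t0, t1, t2, t3, t4, t5] => Nat.beq t0 t2 && Nat.beq t2 t4 && Nat.beq t1 t3 && Nat.beq t3 t5 &&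
      Nat.beq (Nat.land t0 t1) 1
  | _ => false

/-- the lines `k | k + 3` and `k + 1 | k + 4` are blocked -/
def blkB (t : List ℕ) (W : List (List ℕ)) (h g : List ℕ) (k r s c d : ℕ) : Bool :=
  Nat.beq (t.getD (k % 6) 0) (Nat.lor 1 (Nat.lor (2 ^ r) (2 ^ d))) &&
  Nat.beq (t.getD ((k + 3) % 6) 0) (Nat.lor 1 (Nat.lor (2 ^ s) (2 ^ c))) &&
  Nat.beq (t.getD ((k + 1) % 6) 0) (Nat.lor 1 (Nat.lor (2 ^ s) (2 ^ c))) &&
  Nat.beq (t.getD ((k + 4) % 6) 0) (Nat.lor 1 (Nat.lor (2 ^ r) (2 ^ d))) &&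
  (W.all fun w => (w.getD (k % 6) 0).testBit r && (w.getD ((k + 3) % 6) 0).testBit s &&
    (w.getD ((k + 1) % 6) 0).testBit s && (w.getD ((k + 4) % 6) 0).testBit r) &&
  Nat.beq (h.getD (k % 6) 0) (Nat.lor (2 ^ r) (2 ^ d)) &&
  Nat.beq (h.getD ((k + 3) % 6) 0) (Nat.lor (2 ^ s) 1) &&
  Nat.beq (h.getD ((k + 1) % 6) 0) (Nat.lor (2 ^ s) 1) &&
  Nat.beq (h.getD ((k + 4) % 6) 0) (Nat.lor (2 ^ r) (2 ^ d)) &&
  Nat.beq (g.getD (k % 6) 0) (Nat.lor (2 ^ r) 1) &&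
  Nat.beq (g.getD ((k + 3) % 6) 0) (Nat.lor (2 ^ s) (2 ^ c)) &&
  Nat.beq (g.getD ((k + 1) % 6) 0) (Nat.lor (2 ^ s) (2 ^ c)) &&
  Nat.beq (g.getD ((k + 4) % 6) 0) (Nat.lor (2 ^ r) 1) &&
  (h ++ g).any (Nat.beq (Nat.lor (2 ^ c) (2 ^ d)))

/-- the permutations of `1 .. 4` as `(r, s, c, d)` -/
def P4 : List (ℕ × ℕ × ℕ × ℕ) := [(1,2,3,4),(1,2,4,3),(1,3,2,4),(1,3,4,2),(1,4,2,3),(1,4,3,2),
  (2,1,3,4),(2,1,4,3),(2,3,1,4),(2,3,4,1),(2,4,1,3),(2,4,3,1),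
  (3,1,2,4),(3,1,4,2),(3,2,1,4),(3,2,4,1),(3,4,1,2),(3,4,2,1),
  (4,1,2,3),(4,1,3,2),(4,2,1,3),(4,2,3,1),(4,3,1,2),(4,3,2,1)]

/-- two neighbouring lines are blocked and `{c, d}` is a letter -/
def twoBlk (t : List ℕ) (W : List (List ℕ)) (h g : List ℕ) : Bool :=
  (List.range 6).any fun k => P4.any fun p => blkB t W h g k p.1 p.2.1 p.2.2.1 p.2.2.2

/-- F2 for one tuple -/
def f2 (t : List ℕ) (W : List (List ℕ)) : Bool :=
  altB t || W.all fun h => W.all fun g => Nat.beq (clL h) (clL g) || cutB (h ++ g) ||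
    twoBlk t W h g || twoBlk t W g h

/-- F2 with lists -/
def f2' (t0 t1 t2 t3 t4 t5 : ℕ) : Bool := f2 [t0, t1, t2, t3, t4, t5] (WL t0 t1 t2 t3 t4 t5)

set_option maxRecDepth 100000 in
theorem k0 : (rAll fun a0 a1 a2 a3 a4 a5 => !(Nat.beq (cl a1 a2 a3 a4 a5 a0) (cl a0 a1 a2 a3 a4 a5))) =
  true := by decide +kernel

set_option maxRecDepth 100000 in
theorem k1a : (PR.all fun t0 => tAll (PR ++ TR) t0 f1) = true := by decide +kernel

set_option maxRecDepth 100000 in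
theorem k1b : (TR.all fun t0 => tAll (PR ++ TR) t0 f1) = true := by decide +kernel

set_option maxRecDepth 100000 in
theorem k2 : (TR.all fun t0 => tAll TR t0 f2') = true := by decide +kernel

end Vale.Agent.P032.Words6.H378
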